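import Mathlib
import Vale.Agent.H52.SepKernel

/-!
# P194 (direct finiteness of group algebras): kernels that are residually finite `p`-groups

Let `p` be a prime, `K` a division ring of characteristic `p`, `G` a group and `N` a normal
subgroup of `G` which, as an abstract group, is residually a finite `p`-group: every non-identity
element of `N` survives in some homomorphism from `N` to a finite `p`-group.  (No compatibility
with the action of `G` on `N` is required.)  Then

* stable finiteness passes from `K[G ⧸ N]` to `K[G]`, and `K[G]` is stably finite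
  unconditionally when `G ⧸ N` is residually finite;
* direct finiteness (`a * b = 1 → b * a = 1`) passes from `K[G ⧸ N]` to `K[G]`.

Proof: the powers of the kernel of `K[G] → K[G ⧸ N]` have zero intersection, and an idempotent
(matrix) with entries in that kernel lies in all these powers.
-/

namespace Vale.Agent.Results.P194.A00_ResiduallyPKernel

open Vale.Agent.H52

universe u v

theorem result (p : ℕ) [Fact p.Prime] (K : Type v) [DivisionRing K] [CharP K p]
    (G : Type u) [Group G] (N : Subgroup G) [N.Normal]
    (hN : ∀ x : N, x ≠ 1 → ∃ (P : Type u) (_ : Group P) (_ : Finite P),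
      IsPGroup p P ∧ ∃ f : N →* P, f x ≠ 1) :
    (IsStablyFiniteRing (MonoidAlgebra K (G ⧸ N)) ∨ Group.ResiduallyFinite (G ⧸ N) →
      IsStablyFiniteRing (MonoidAlgebra K G)) ∧
    ((∀ a b : MonoidAlgebra K (G ⧸ N), a * b = 1 → b * a = 1) →
      ∀ a b : MonoidAlgebra K G, a * b = 1 → b * a = 1) := by
  refine ⟨fun hQ => ?_, fun hQ a b hab => ?_⟩
  · have hQ' : IsStablyFiniteRing (MonoidAlgebra K (G ⧸ N)) := by
      rcases hQ with h | h
      · exact h
      · exact stablyFinite_of_residuallyFinite K (G ⧸ N)
    exact stablyFinite_of_residuallyP_normal p K N hN hQ'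
  · have h1 : IsDedekindFiniteMonoid (MonoidAlgebra K (G ⧸ N)) := ⟨fun {a b} h => hQ a b h⟩
    have h2 := dedekindFinite_of_residuallyP_normal p K N hN h1
    exact mul_eq_one_symm hab

end Vale.Agent.Results.P194.A00_ResiduallyPKernel
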