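import Mathlib
import Vale.Agent.H52.Regular

/-!
# P194 (direct finiteness of group algebras): one-sided units with a dominant term

Let `R` be any ring and `G` any group, and let `a * b = 1` in the group ring `R[G]`.
Suppose there is a subsemigroup `P` of `G` with `1 ∉ P` and a group element `g₀` such that either

* the coefficient of `a` at `g₀` is left regular (for a field: nonzero) and every other element
  `g` of the support of `a` satisfies `g₀⁻¹ * g ∈ P`, or
* the coefficient of `b` at `g₀` is right regular and every other element `g` of the support of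
  `b` satisfies `g * g₀⁻¹ ∈ P`.

Then `b * a = 1`.  (For instance `P` can be the preimage of the positive cone under a
homomorphism from `G` to an ordered group such as `ℤ` or `ℝ`.)
-/

namespace Vale.Agent.Results.P194.A_DominantTerm

open Vale.Agent.H52

theorem result {R G : Type*} [Ring R] [Group G] (a b : MonoidAlgebra R G) (hab : a * b = 1)
    (P : Subsemigroup G) (hP : (1 : G) ∉ P) (g₀ : G)
    (h : (IsLeftRegular (a.coeff g₀) ∧ ∀ g ∈ a.coeff.support, g ≠ g₀ → g₀⁻¹ * g ∈ P) ∨
      (IsRightRegular (b.coeff g₀) ∧ ∀ g ∈ b.coeff.support, g ≠ g₀ → g * g₀⁻¹ ∈ P)) :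
    b * a = 1 := by
  rcases h with ⟨hreg, hsupp⟩ | ⟨hreg, hsupp⟩
  · -- `a` is left regular in `R[G]`
    have hzero : a * (b * a - 1) = 0 := by
      rw [mul_sub, ← mul_assoc, hab, one_mul, mul_one, sub_self]
    have hreg' : ∀ r : R, a.coeff g₀ * r = 0 → r = 0 := by
      intro r hr
      apply hreg
      simpa using hr
    have := left_regular_of_semigroup P hP a g₀ hreg' hsupp _ hzero
    exact sub_eq_zero.mp this
  · -- `b` is right regular in `R[G]`
    have hzero : (b * a - 1) * b = 0 := by
      rw [sub_mul, mul_assoc, hab, one_mul, mul_one, sub_self]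
    have hreg' : ∀ r : R, r * b.coeff g₀ = 0 → r = 0 := by
      intro r hr
      apply hreg
      simpa using hr
    have := right_regular_of_semigroup P hP b g₀ hreg' hsupp _ hzero
    exact sub_eq_zero.mp this

end Vale.Agent.Results.P194.A_DominantTerm
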