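import Mathlib
import Vale.Agent.H52.Coset

/-!
# P194 (direct finiteness of group algebras): factors supported in a coset of an abelian subgroup

Let `R` be a commutative ring, `G` any group and `a * b = 1` in `R[G]`.

* If the support of `a` lies in a left coset `g₀ H` of an abelian subgroup `H` of `G`, or the
  support of `b` lies in a right coset `H g₀` of an abelian subgroup `H`, then `b * a = 1`.
* In particular, if `a` or `b` has at most two terms, then `b * a = 1`.
-/

namespace Vale.Agent.Results.P194.B_AbelianCoset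

open Vale.Agent.H52 MonoidAlgebra

/-- The group algebra of an abelian subgroup is directly finite (it is commutative). -/
theorem abelian_subgroup_directly_finite {R G : Type*} [CommRing R] [Group G] (H : Subgroup G)
    (hH : ∀ x ∈ H, ∀ y ∈ H, x * y = y * x) :
    ∀ x y : MonoidAlgebra R H, x * y = 1 → y * x = 1 := by
  intro x y hxy
  letI : CommGroup H :=
    { (inferInstance : Group H) with
      mul_comm := fun u v => Subtype.ext (hH u u.2 v v.2) }
  have hcomm : y * x = x * y := mul_comm y x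
  rw [hcomm]
  exact hxy

/-- The abelian coset statement. -/
theorem abelian_coset {R G : Type*} [CommRing R] [Group G] (a b : MonoidAlgebra R G)
    (hab : a * b = 1) (H : Subgroup G) (hH : ∀ x ∈ H, ∀ y ∈ H, x * y = y * x)
    (h : (∃ g₀ : G, ∀ g ∈ a.coeff.support, g₀⁻¹ * g ∈ H) ∨
      (∃ g₀ : G, ∀ g ∈ b.coeff.support, g * g₀⁻¹ ∈ H)) : b * a = 1 := by
  rcases h with ⟨g₀, hg₀⟩ | ⟨g₀, hg₀⟩
  · exact mul_eq_one_comm_of_left_coset H (abelian_subgroup_directly_finite H hH) a b g₀ hg₀ hab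
  · exact mul_eq_one_comm_of_right_coset H (abelian_subgroup_directly_finite H hH) a b g₀ hg₀ hab

theorem zpowers_comm {G : Type*} [Group G] (z : G) :
    ∀ x ∈ Subgroup.zpowers z, ∀ y ∈ Subgroup.zpowers z, x * y = y * x := by
  intro x hx y hy
  obtain ⟨m, rfl⟩ := Subgroup.mem_zpowers_iff.mp hx
  obtain ⟨n, rfl⟩ := Subgroup.mem_zpowers_iff.mp hy
  rw [← zpow_add, ← zpow_add, add_comm]

/-- A finite set with at most two elements is contained in `{g₀, g₁}` for suitable `g₀, g₁`. -/
theorem exists_pair_of_card_le_two {G : Type*} [DecidableEq G] (s : Finset G) (hs : s.card ≤ 2)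
    (hne : s.Nonempty) : ∃ g₀ g₁ : G, ∀ g ∈ s, g = g₀ ∨ g = g₁ := by
  obtain ⟨g₀, hg₀⟩ := hne
  have hcard : (s.erase g₀).card ≤ 1 := by
    rw [Finset.card_erase_of_mem hg₀]
    omega
  by_cases he : (s.erase g₀).Nonempty
  · obtain ⟨g₁, hg₁⟩ := he
    refine ⟨g₀, g₁, fun g hg => ?_⟩
    by_cases hgg : g = g₀
    · exact Or.inl hgg
    · right
      exact Finset.card_le_one.mp hcard g (Finset.mem_erase.mpr ⟨hgg, hg⟩) g₁ hg₁
  · refine ⟨g₀, g₀, fun g hg => ?_⟩
    by_contra hgg
    exact he ⟨g, Finset.mem_erase.mpr ⟨fun e => hgg (Or.inl e), hg⟩⟩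

theorem result {R G : Type*} [CommRing R] [Group G] (a b : MonoidAlgebra R G)
    (hab : a * b = 1) :
    (∀ H : Subgroup G, (∀ x ∈ H, ∀ y ∈ H, x * y = y * x) →
      ((∃ g₀ : G, ∀ g ∈ a.coeff.support, g₀⁻¹ * g ∈ H) ∨
        (∃ g₀ : G, ∀ g ∈ b.coeff.support, g * g₀⁻¹ ∈ H)) → b * a = 1) ∧
    ((a.coeff.support.card ≤ 2 ∨ b.coeff.support.card ≤ 2) → b * a = 1) := by
  classical
  refine ⟨fun H hH h => abelian_coset a b hab H hH h, ?_⟩
  rintro (h | h)
  · by_cases hne : a.coeff.support.Nonempty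
    · obtain ⟨g₀, g₁, hg⟩ := exists_pair_of_card_le_two _ h hne
      refine abelian_coset a b hab (Subgroup.zpowers (g₀⁻¹ * g₁)) (zpowers_comm _)
        (Or.inl ⟨g₀, fun g hgs => ?_⟩)
      rcases hg g hgs with rfl | rfl
      · simp
      · exact Subgroup.mem_zpowers _
    · refine abelian_coset a b hab ⊥ (by simp) (Or.inl ⟨1, fun g hgs => ?_⟩)
      exact absurd ⟨g, hgs⟩ hne
  · by_cases hne : b.coeff.support.Nonempty
    · obtain ⟨g₀, g₁, hg⟩ := exists_pair_of_card_le_two _ h hne
      refine abelian_coset a b hab (Subgroup.zpowers (g₁ * g₀⁻¹)) (zpowers_comm _)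
        (Or.inr ⟨g₀, fun g hgs => ?_⟩)
      rcases hg g hgs with rfl | rfl
      · simp
      · exact Subgroup.mem_zpowers _
    · refine abelian_coset a b hab ⊥ (by simp) (Or.inr ⟨1, fun g hgs => ?_⟩)
      exact absurd ⟨g, hgs⟩ hne

end Vale.Agent.Results.P194.B_AbelianCoset
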