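import Mathlib
import Vale.Agent.Results.P194.A00_ResiduallyPKernel
import Vale.Agent.Results.P194.A_DominantTerm
import Vale.Agent.Results.P194.B_AbelianCoset

/-!
# P194 (direct finiteness of group algebras): the results proved here, in one statement

1. Characteristic `p`: if `K` is a division ring of characteristic `p`, `N` is a normal subgroup
   of `G` that is residually a finite `p`-group, and `K[G/N]` is stably finite (or `G/N` is
   residually finite), then `K[G]` is stably finite; and if `K[G/N]` is directly finite, so is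
   `K[G]`.
2. Dominant term: for every ring `R`, every group `G` and `a b = 1` in `R[G]`, if one factor has
   a dominant term with respect to a subsemigroup `P` not containing `1`, then `b a = 1`.
3. Abelian coset: for every commutative ring `R`, every group `G` and `a b = 1` in `R[G]`, if
   one factor is supported in a coset of a subgroup whose elements commute, or has at most two
   nonzero coefficients, then `b a = 1`.

The three statements are those of the hand-ins `A00_ResiduallyPKernel`, `A_DominantTerm` and
`B_AbelianCoset` of this folder.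
-/

namespace Vale.Agent.Results.P194.A000_Combined

universe u v

theorem result :
    (∀ (p : ℕ) [Fact p.Prime] (K : Type v) [DivisionRing K] [CharP K p]
        (G : Type u) [Group G] (N : Subgroup G) [N.Normal],
      (∀ x : N, x ≠ 1 → ∃ (P : Type u) (_ : Group P) (_ : Finite P),
        IsPGroup p P ∧ ∃ f : N →* P, f x ≠ 1) →
      (IsStablyFiniteRing (MonoidAlgebra K (G ⧸ N)) ∨ Group.ResiduallyFinite (G ⧸ N) →
        IsStablyFiniteRing (MonoidAlgebra K G)) ∧
      ((∀ a b : MonoidAlgebra K (G ⧸ N), a * b = 1 → b * a = 1) →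
        ∀ a b : MonoidAlgebra K G, a * b = 1 → b * a = 1)) ∧
    (∀ (R : Type v) [Ring R] (G : Type u) [Group G] (a b : MonoidAlgebra R G), a * b = 1 →
      ∀ (P : Subsemigroup G), (1 : G) ∉ P → ∀ g₀ : G,
        ((IsLeftRegular (a.coeff g₀) ∧ ∀ g ∈ a.coeff.support, g ≠ g₀ → g₀⁻¹ * g ∈ P) ∨
          (IsRightRegular (b.coeff g₀) ∧ ∀ g ∈ b.coeff.support, g ≠ g₀ → g * g₀⁻¹ ∈ P)) →
        b * a = 1) ∧
    (∀ (R : Type v) [CommRing R] (G : Type u) [Group G] (a b : MonoidAlgebra R G), a * b = 1 →
      (∀ H : Subgroup G, (∀ x ∈ H, ∀ y ∈ H, x * y = y * x) →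
        ((∃ g₀ : G, ∀ g ∈ a.coeff.support, g₀⁻¹ * g ∈ H) ∨
          (∃ g₀ : G, ∀ g ∈ b.coeff.support, g * g₀⁻¹ ∈ H)) → b * a = 1) ∧
      ((a.coeff.support.card ≤ 2 ∨ b.coeff.support.card ≤ 2) → b * a = 1)) :=
  ⟨fun p _ K _ _ G _ N _ hN =>
      Vale.Agent.Results.P194.A00_ResiduallyPKernel.result p K G N hN,
    fun _ _ _ _ a b hab P hP g₀ h =>
      Vale.Agent.Results.P194.A_DominantTerm.result a b hab P hP g₀ h,
    fun _ _ _ _ a b hab => Vale.Agent.Results.P194.B_AbelianCoset.result a b hab⟩

end Vale.Agent.Results.P194.A000_Combined
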