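import Mathlib
import Vale.Agent.H52.CentralCyclic

/-!
# P194 (direct finiteness of group algebras): kernels that are (residually) finite `p`-groups

Let `p` be a prime, `K` a division ring of characteristic `p` and `G` a group.  Stable finiteness
of the group algebra passes from a quotient `G ⧸ N` to `G` when the kernel `N` is

* a finite normal `p`-subgroup (the kernel of `K[G] → K[G ⧸ N]` is then a nilpotent ideal);
* the infinite cyclic group generated by a central element;
* more generally, a normal subgroup such that every finite subset of `N ∖ {1}` is avoided by a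
  normal subgroup `M ≤ N` of `G` whose index in `N` is a power of `p`.

For a residually finite quotient `G ⧸ N` the conclusion is unconditional.
-/

namespace Vale.Agent.Results.P194.C_PKernelClosure

open Vale.Agent.H52

universe u v

theorem result (p : ℕ) [Fact p.Prime] (K : Type v) [DivisionRing K] [CharP K p]
    (G : Type u) [Group G] :
    (∀ (N : Subgroup G) [N.Normal], Finite N → IsPGroup p N →
      (IsStablyFiniteRing (MonoidAlgebra K (G ⧸ N)) ∨ Group.ResiduallyFinite (G ⧸ N)) →
      IsStablyFiniteRing (MonoidAlgebra K G)) ∧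
    (∀ (z : G) [(Subgroup.zpowers z).Normal], z ∈ Subgroup.center G → ¬ IsOfFinOrder z →
      (IsStablyFiniteRing (MonoidAlgebra K (G ⧸ Subgroup.zpowers z)) ∨
        Group.ResiduallyFinite (G ⧸ Subgroup.zpowers z)) →
      IsStablyFiniteRing (MonoidAlgebra K G)) ∧
    (∀ (N : Subgroup G) [N.Normal],
      (∀ S : Finset G, (∀ s ∈ S, s ∈ N ∧ s ≠ 1) → ∃ M : Subgroup G,
        M.Normal ∧ M ≤ N ∧ (∀ s ∈ S, s ∉ M) ∧ ∃ k : ℕ, M.relIndex N = p ^ k) →
      (IsStablyFiniteRing (MonoidAlgebra K (G ⧸ N)) ∨ Group.ResiduallyFinite (G ⧸ N)) →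
      IsStablyFiniteRing (MonoidAlgebra K G)) := by
  have quot : ∀ (N : Subgroup G) [N.Normal],
      (IsStablyFiniteRing (MonoidAlgebra K (G ⧸ N)) ∨ Group.ResiduallyFinite (G ⧸ N)) →
      IsStablyFiniteRing (MonoidAlgebra K (G ⧸ N)) := by
    intro N _ h
    rcases h with h | h
    · exact h
    · exact stablyFinite_of_residuallyFinite K (G ⧸ N)
  refine ⟨?_, ?_, ?_⟩
  · intro N _ hfin hN hQ
    exact stablyFinite_of_finite_pKernel p K N hN (quot N hQ)
  · intro z _ hzc hz hQ
    exact stablyFinite_of_central_cyclic_kernel p K z hzc hz (quot _ hQ)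
  · intro N _ hN hQ
    exact stablyFinite_of_residually_p_kernel p K N hN (quot N hQ)

end Vale.Agent.Results.P194.C_PKernelClosure
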